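import Vale.Agent.P181.H662.InvO
import Vale.Agent.P181.H23.Blk

set_option autoImplicit false

namespace Vale.Agent.P181.H662

/-- **[InvO]**: invariants of degree `2K` of forms of degree `2h + 1` in `2h + 1` variables,
for every even `K > h`. -/
theorem invO : H385.InvO := invO_of H23.blk

end Vale.Agent.P181.H662
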