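import Vale.Agent.P181.H530.Pad
import Vale.Agent.P181.H530.Zero

set_option autoImplicit false

/-!
# P181, H385: from `a` rows to `n ≥ a` rows, and the residues
-/

namespace Vale.Agent.P181.H662

open Vale.Agent.P181 Vale.Agent.P181.H280

lemma lam_eq {a k : ℕ} (lam : Fin (a + k) → ℕ) (hz : ∀ i : Fin (a + k), a ≤ (i : ℕ) → lam i = 0) :
    ∃ mu : Fin a → ℕ, (∀ j : Fin a, mu j = lam (Fin.castAdd k j)) ∧
      lam = fun i : Fin (a + k) => if h : (i : ℕ) < a then mu ⟨i, h⟩ else 0 := by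
  refine ⟨fun j => lam (Fin.castAdd k j), fun _ => rfl, ?_⟩
  funext i
  by_cases hi : (i : ℕ) < a
  · rw [dif_pos hi]
    rfl
  · rw [dif_neg hi]
    exact hz i (not_lt.1 hi)

theorem tall_pad (a b N : ℕ)
    (h : ∀ lam : Fin a → ℕ, (∀ i, N ≤ lam i) → plethMult a b a lam ≤ plethMult b a a lam)
    (n : ℕ) (han : a ≤ n) (lam : Fin n → ℕ) (hlam : ∀ i : Fin n, (i : ℕ) < a → N ≤ lam i) :
    plethMult a b n lam ≤ plethMult b a n lam := by
  by_cases h0 : plethMult a b n lam = 0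
  · rw [h0]
    exact Nat.zero_le _
  · obtain ⟨k, rfl⟩ := Nat.exists_eq_add_of_le han
    obtain ⟨mu, h1, h2⟩ := lam_eq lam (H530.zero_stmt a b (a + k) lam h0).2.2
    rw [h2, H530.pad_stmt a b a k mu, H530.pad_stmt b a a k mu]
    exact h mu fun j => by
      rw [h1]
      exact hlam _ j.2

/-- Residues, `a` and `b` even. -/
theorem resE (a b : ℕ) (ha : 2 ≤ a) (hae : Even a) (hb : Even b) (hab : 2 * a ≤ b) :
    ∃ K q : ℕ, a ≤ 2 * K ∧ 2 * K < 2 * a ∧ 1 ≤ q ∧ b = q * a + 2 * K := by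
  obtain ⟨h, rfl⟩ := hae
  obtain ⟨k, rfl⟩ := hb
  have h1 := Nat.div_add_mod k h
  have h2 := Nat.mod_lt k (show 0 < h by omega)
  have h3 : 2 ≤ k / h := (Nat.le_div_iff_mul_le (by omega)).2 (by omega)
  obtain ⟨q, hq⟩ := Nat.exists_eq_add_of_le h3
  refine ⟨h + k % h, q + 1, by omega, by omega, by omega, ?_⟩
  rw [hq] at h1
  have h4 : h * (2 + q) = 2 * h + h * q := by ring
  have h5 : (q + 1) * (h + h) = 2 * (h * q) + 2 * h := by ring
  omega

/-- Residues, `a` odd. -/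
theorem resO (a b : ℕ) (ha : Odd a) (hab : 6 * a ≤ b) :
    ∃ K q : ℕ, Even K ∧ a < 2 * K ∧ 2 * K ≤ 5 * a ∧ 1 ≤ q ∧ b = q * a + 2 * K := by
  have hpos : 0 < a := ha.pos
  obtain ⟨m, hm⟩ : ∃ m, 4 * m ≡ 1 [MOD a] := by
    have hmod : a % 4 = 1 ∨ a % 4 = 3 := by
      obtain ⟨r, hr⟩ := ha
      omega
    rcases hmod with h | h
    · refine ⟨a - a / 4, ?_⟩
      have h1 : 4 * (a - a / 4) = 1 + 3 * a := by omega
      rw [h1]
      exact Nat.add_mul_modulus_modEq_iff.2 rfl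
    · refine ⟨a / 4 + 1, ?_⟩
      have h1 : 4 * (a / 4 + 1) = 1 + 1 * a := by omega
      rw [h1]
      exact Nat.add_mul_modulus_modEq_iff.2 rfl
  have h0 : 4 * (m * b % a) ≡ b [MOD a] := by
    have h1 : 4 * (m * b % a) ≡ 4 * (m * b) [MOD a] := (Nat.mod_modEq _ _).mul_left 4
    have h2 : 4 * (m * b) ≡ 1 * b [MOD a] := by
      rw [← mul_assoc]
      exact hm.mul_right b
    rw [one_mul] at h2
    exact h1.trans h2
  have hlt := Nat.mod_lt (m * b) hpos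
  set j := m * b % a with hj
  obtain ⟨l, hl1, hl2, hl3⟩ : ∃ l, a < 4 * l ∧ 4 * l ≤ 5 * a ∧ 4 * l ≡ b [MOD a] := by
    by_cases hc : a < 4 * j
    · exact ⟨j, hc, by omega, h0⟩
    · refine ⟨j + a, by omega, by omega, ?_⟩
      have h1 : 4 * (j + a) = 4 * j + 4 * a := by ring
      rw [h1]
      exact (Nat.add_mul_modulus_modEq_iff.2 rfl).trans h0
  obtain ⟨q, hq⟩ := (Nat.modEq_iff_dvd' (show 4 * l ≤ b by omega)).1 hl3
  refine ⟨2 * l, q, even_two_mul l, by omega, by omega, ?_, ?_⟩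
  · rcases Nat.eq_zero_or_pos q with h | h
    · rw [h, mul_zero] at hq
      omega
    · exact h
  · rw [mul_comm q a, ← hq]
    omega

end Vale.Agent.P181.H662
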