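import Vale.Agent.P181.H385.Defs
import Vale.Agent.P181.H662.Pad

set_option autoImplicit false

/-!
# P181, H385: the assembly
-/

namespace Vale.Agent.P181.H662

open Vale.Agent.P181 Vale.Agent.P181.H280

/-- `2K` full columns are removed on the side `Sym^a(Sym^b)`. -/
theorem lhsIter (hL : H385.LhsStep) (a b K : ℕ) (ha : 1 ≤ a) :
    ∀ lam : Fin a → ℕ, (∀ i, 2 * K ≤ lam i) →
      plethMult a (b + 2 * K) a lam ≤ plethMult a b a (fun i => lam i - 2 * K) := by
  induction K with
  | zero =>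
    intro lam _
    simp
  | succ K ih =>
    intro lam hlam
    have h1 := hL a (b + 2 * K) lam ha (fun i => le_trans (by omega) (hlam i))
    have h2 := ih (fun i => lam i - 2) (fun i => by have := hlam i; omega)
    have h3 : (fun i => lam i - 2 - 2 * K) = fun i => lam i - 2 * (K + 1) := by
      funext i
      omega
    simp only [h3] at h2
    have h4 : b + 2 * (K + 1) = b + 2 * K + 2 := by ring
    rw [h4]
    exact h1.trans h2

/-- `2K` full columns may be added to any shape, `a` rows. -/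
theorem addCore (hL : H385.LhsStep) (hR : H385.RhsMul) (a b K : ℕ) (ha : 1 ≤ a)
    (hI : 1 ≤ plethMult (2 * K) a a (fun _ => 2 * K)) (lam : Fin a → ℕ)
    (hlam : ∀ i, 2 * K ≤ lam i)
    (h : plethMult a b a (fun i => lam i - 2 * K) ≤ plethMult b a a (fun i => lam i - 2 * K)) :
    plethMult a (b + 2 * K) a lam ≤ plethMult (b + 2 * K) a a lam := by
  have h1 := lhsIter hL a b K ha lam hlam
  have h3 := hR a a b (2 * K) (fun i => lam i - 2 * K) (fun _ => 2 * K) hI
  have h4 : (fun i => lam i - 2 * K + 2 * K) = lam := by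
    funext i
    exact Nat.sub_add_cancel (hlam i)
  rw [h4] at h3
  exact h1.trans (h.trans h3)

/-- The core: `a` rows. -/
theorem core (hL : H385.LhsStep) (hR : H385.RhsMul) (a q K : ℕ) (ha : 2 ≤ a) (hq : 1 ≤ q)
    (hI : 1 ≤ plethMult (2 * K) a a (fun _ => 2 * K)) (lam : Fin a → ℕ)
    (hlam : ∀ i, 2 * K + 2 * q ≤ lam i + 3) (hlam2 : ∀ i, 2 * K ≤ lam i) :
    plethMult a (q * a + 2 * K) a lam ≤ plethMult (q * a + 2 * K) a a lam := by
  refine addCore hL hR a (q * a) K (by omega) hI lam hlam2 ?_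
  rcases Nat.lt_or_ge 1 q with h | h
  · exact plethMult_le ha h le_rfl _ (fun i _ => by have := hlam i; omega)
  · obtain rfl : q = 1 := by omega
    rw [one_mul]

/-- The translation principle: `c` full columns of length `a` may be added. -/
def ColAdd : Prop := ∀ (a c b n : ℕ) (lam : Fin n → ℕ), 2 ≤ a → a ≤ n →
  ((Even a ∧ Even c ∧ a ≤ c) ∨ (Odd a ∧ 4 ∣ c ∧ a < c)) →
  plethMult a b n lam ≤ plethMult b a n lam →
  plethMult a (b + c) n (fun i => lam i + if (i : ℕ) < a then c else 0) ≤
    plethMult (b + c) a n (fun i => lam i + if (i : ℕ) < a then c else 0)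

theorem inv_of (hE : H385.InvE) (hO : H385.InvO) {a c : ℕ} (ha : 2 ≤ a)
    (hc : (Even a ∧ Even c ∧ a ≤ c) ∨ (Odd a ∧ 4 ∣ c ∧ a < c)) :
    ∃ K, c = 2 * K ∧ 1 ≤ plethMult (2 * K) a a (fun _ => 2 * K) := by
  rcases hc with ⟨⟨h, hh⟩, ⟨K, hK⟩, hac⟩ | ⟨⟨h, hh⟩, ⟨K, hK⟩, hac⟩
  · obtain rfl : a = 2 * h := by omega
    exact ⟨K, by omega, hE h K (by omega) (by omega)⟩
  · obtain rfl : a = 2 * h + 1 := by omega
    exact ⟨2 * K, by omega, hO h (2 * K) (by omega) (by omega) (even_two_mul K)⟩

theorem colAdd (hL : H385.LhsStep) (hR : H385.RhsMul) (hE : H385.InvE) (hO : H385.InvO) :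
    ColAdd := by
  intro a c b n lam ha han hc h
  obtain ⟨K, rfl, hI⟩ := inv_of hE hO ha hc
  set nu : Fin n → ℕ := fun i => lam i + if (i : ℕ) < a then 2 * K else 0 with hnu
  by_cases h0 : plethMult a (b + 2 * K) n nu = 0
  · rw [h0]
    exact Nat.zero_le _
  · obtain ⟨k, rfl⟩ := Nat.exists_eq_add_of_le han
    have hz := (H530.zero_stmt a (b + 2 * K) (a + k) nu h0).2.2
    obtain ⟨mu, h1, h2⟩ := lam_eq nu hz
    have hz' : ∀ i : Fin (a + k), a ≤ (i : ℕ) → lam i = 0 := by
      intro i hi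
      have h3 := hz i hi
      rw [hnu] at h3
      exact (Nat.add_eq_zero_iff.1 h3).1
    obtain ⟨mu', h1', h2'⟩ := lam_eq lam hz'
    have hmu : ∀ j, mu j = mu' j + 2 * K := by
      intro j
      rw [h1, h1', hnu]
      simp
    rw [h2, H530.pad_stmt a (b + 2 * K) a k mu, H530.pad_stmt (b + 2 * K) a a k mu]
    rw [h2', H530.pad_stmt a b a k mu', H530.pad_stmt b a a k mu'] at h
    refine addCore hL hR a b K (by omega) hI mu (fun j => by rw [hmu]; omega) ?_
    have h5 : (fun i => mu i - 2 * K) = mu' := by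
      funext j
      rw [hmu]
      omega
    rw [h5]
    exact h

/-- **The assembly.** -/
theorem tallAll (hL : H385.LhsStep) (hR : H385.RhsMul) (hE : H385.InvE) (hO : H385.InvO) :
    H385.TallAll := by
  intro a b n ha han hab hpar lam hlam
  refine tall_pad a b (5 * a + 2 * (b / a)) ?_ n han lam hlam
  intro lam hlam
  rcases Nat.even_or_odd a with hae | hao
  · have hb : Even b := by
      rcases hpar with h | h
      · exact absurd hae (Nat.not_even_iff_odd.2 h)
      · exact h
    obtain ⟨K, q, h1, h2, h3, h4⟩ := resE a b ha hae hb (by omega)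
    have hqb : q ≤ b / a := (Nat.le_div_iff_mul_le (by omega)).2 (by omega)
    obtain ⟨h, hh⟩ := hae
    obtain rfl : a = 2 * h := by omega
    rw [h4]
    exact core hL hR (2 * h) q K ha h3 (hE h K (by omega) (by omega)) lam
      (fun i => by have := hlam i; omega) (fun i => by have := hlam i; omega)
  · obtain ⟨K, q, h1, h2, h3, h4, h5⟩ := resO a b hao hab
    have hqb : q ≤ b / a := (Nat.le_div_iff_mul_le (by omega)).2 (by omega)
    obtain ⟨h, hh⟩ := hao
    obtain rfl : a = 2 * h + 1 := by omega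
    rw [h5]
    exact core hL hR (2 * h + 1) q K ha h4 (hO h K (by omega) (by omega) h1) lam
      (fun i => by have := hlam i; omega) (fun i => by have := hlam i; omega)

end Vale.Agent.P181.H662
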