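import Vale.Agent.P181.H385.Defs
import Mathlib.Data.ZMod.Basic

set_option autoImplicit false

/-!
# P181: invariants of degree `2K` of forms of odd degree `2h + 1` in `2h + 1` variables
-/

namespace Vale.Agent.P181.H662

open Vale.Agent.P181 Vale.Agent.P181.H280 Finset

/-- A symmetric subset of `ZMod (2k)` without zero, of any size below `2k`. -/
lemma exists_sym (k h : ℕ) (hh : h < 2 * k) :
    ∃ H : Finset (ZMod (2 * k)), H.card = h ∧ (0 : ZMod (2 * k)) ∉ H ∧ ∀ v ∈ H, -v ∈ H := by
  have : NeZero (2 * k) := ⟨by omega⟩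
  have odd : ∀ m, m < k → ∃ H : Finset (ZMod (2 * k)), H.card = 2 * m + 1 ∧
      (0 : ZMod (2 * k)) ∉ H ∧ (∀ v ∈ H, -v ∈ H) ∧ (k : ZMod (2 * k)) ∈ H := by
    intro m hm
    refine ⟨(Finset.Icc (k - m) (k + m)).image (fun j : ℕ => (j : ZMod (2 * k))), ?_, ?_, ?_, ?_⟩
    · rw [Finset.card_image_of_injOn]
      · rw [Nat.card_Icc]
        omega
      · intro x hx y hy hxy
        simp only [Finset.coe_Icc, Set.mem_Icc] at hx hy
        have h1 := congrArg ZMod.val hxy
        simp only [ZMod.val_natCast] at h1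
        rw [Nat.mod_eq_of_lt (by omega), Nat.mod_eq_of_lt (by omega)] at h1
        exact h1
    · intro h0
      rw [Finset.mem_image] at h0
      obtain ⟨j, hj, hj0⟩ := h0
      rw [Finset.mem_Icc] at hj
      have h1 := (ZMod.natCast_eq_zero_iff j (2 * k)).1 hj0
      have h2 := Nat.le_of_dvd (by omega) h1
      omega
    · intro v hv
      rw [Finset.mem_image] at hv ⊢
      obtain ⟨j, hj, rfl⟩ := hv
      rw [Finset.mem_Icc] at hj
      refine ⟨2 * k - j, Finset.mem_Icc.2 (by omega), ?_⟩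
      rw [Nat.cast_sub (by omega), ZMod.natCast_self, zero_sub]
    · exact Finset.mem_image.2 ⟨k, Finset.mem_Icc.2 (by omega), rfl⟩
  rcases Nat.even_or_odd' h with ⟨m, rfl | rfl⟩
  · obtain ⟨H, h1, h2, h3, h4⟩ := odd m (by omega)
    refine ⟨H.erase k, ?_, ?_, ?_⟩
    · rw [Finset.card_erase_of_mem h4, h1]
      rfl
    · exact fun h => h2 (Finset.mem_of_mem_erase h)
    · intro v hv
      rw [Finset.mem_erase] at hv ⊢
      refine ⟨?_, h3 v hv.2⟩
      intro h5
      apply hv.1
      have h6 : v = -(k : ZMod (2 * k)) := by rw [← h5, neg_neg]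
      rw [h6, neg_eq_iff_add_eq_zero]
      have h7 : (k : ZMod (2 * k)) + (k : ZMod (2 * k)) = ((2 * k : ℕ) : ZMod (2 * k)) := by
        push_cast
        ring
      rw [h7, ZMod.natCast_self]
  · obtain ⟨H, h1, h2, h3, h4⟩ := odd m (by omega)
    exact ⟨H, h1, h2, h3⟩

/-- A product over the edges of a Cayley graph, both orientations, is positive. -/
lemma prod_pos_sym {G : Type} [AddCommGroup G] [Fintype G] [DecidableEq G] (H : Finset G)
    (h0 : (0 : G) ∉ H) (hs : ∀ v ∈ H, -v ∈ H) (D : G → G → ℝ)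
    (hD : ∀ u v, u ≠ v → D u v ≠ 0) (hsym : ∀ u v, D u v = D v u) :
    0 < ∏ u, ∏ v ∈ H, D u (u + v) := by
  have hne : ∀ x ∈ (univ : Finset G) ×ˢ H, D x.1 (x.1 + x.2) ≠ 0 := by
    intro x hx
    apply hD
    intro h
    have h2 : x.2 = 0 := by simpa using h.symm
    exact h0 (h2 ▸ (Finset.mem_product.1 hx).2)
  have h1 : SignType.sign (∏ x ∈ (univ : Finset G) ×ˢ H, D x.1 (x.1 + x.2)) = 1 := by
    have h2 : SignType.sign (∏ x ∈ (univ : Finset G) ×ˢ H, D x.1 (x.1 + x.2)) =
        ∏ x ∈ (univ : Finset G) ×ˢ H, SignType.sign (D x.1 (x.1 + x.2)) :=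
      map_prod (signHom : ℝ →*₀ SignType) _ _
    rw [h2]
    refine Finset.prod_involution (fun x _ => (x.1 + x.2, -x.2)) ?_ ?_ ?_ ?_
    · intro x hx
      have h3 : D (x.1 + x.2) (x.1 + x.2 + -x.2) = D x.1 (x.1 + x.2) := by
        rw [add_neg_cancel_right, hsym]
      change SignType.sign (D x.1 (x.1 + x.2)) *
        SignType.sign (D (x.1 + x.2) (x.1 + x.2 + -x.2)) = 1
      rw [h3, ← sign_mul]
      exact sign_eq_one_iff.2 (mul_self_pos.2 (hne x hx))
    · intro x hx _ h
      have h2 : x.2 = 0 := by simpa using congrArg Prod.fst h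
      exact h0 (h2 ▸ (Finset.mem_product.1 hx).2)
    · intro x hx
      exact Finset.mem_product.2 ⟨mem_univ _, hs _ (Finset.mem_product.1 hx).2⟩
    · intro x hx
      simp
  rw [Finset.prod_product] at h1
  exact sign_eq_one_iff.1 h1

/-- The literal of the shared block lemma. -/
def BlkStmt : Prop := ∀ {P I : Type} [Fintype P] [Fintype I] [DecidableEq P] {a b c m : ℕ}
  (_hb : Fintype.card P = b) (_hc : Fintype.card I = c) (B : I → Fin m → P)
  (_hinj : ∀ β, Function.Injective (B β))
  (_hdeg : ∀ x : P, ∑ β, ∑ i, (if B β i = x then 1 else 0) = a)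
  (_hpos : ∀ t : P → ℝ, Function.Injective t →
    0 ≤ ∏ β, ∏ i, ∏ j ∈ Finset.Ioi i, (t (B β j) - t (B β i))),
  1 ≤ plethMult b a m (fun _ => c)

theorem invO_of (blk : BlkStmt) : H385.InvO := by
  intro h K h1 hK hE
  obtain ⟨k, hk⟩ := hE
  obtain rfl : K = 2 * k := by omega
  have : NeZero (2 * k) := ⟨by omega⟩
  obtain ⟨H, hH, h0, hs⟩ := exists_sym k h hK
  let e : Fin (2 * h) ≃ H × Bool := (Fintype.equivFinOfCardEq (by
    rw [Fintype.card_prod, Fintype.card_bool, Fintype.card_coe, hH, mul_comm])).symm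
  let w : ZMod (2 * k) → Fin (2 * h) → ZMod (2 * k) × Bool := fun u i => (u + (e i).1, (e i).2)
  let B : ZMod (2 * k) × Bool → Fin (2 * h + 1) → ZMod (2 * k) × Bool :=
    fun β => Fin.cons β (w β.1)
  have hcard : Fintype.card (ZMod (2 * k) × Bool) = 2 * (2 * k) := by
    rw [Fintype.card_prod, Fintype.card_bool, ZMod.card, mul_comm]
  refine blk (P := ZMod (2 * k) × Bool) (I := ZMod (2 * k) × Bool) hcard hcard B ?_ ?_ ?_
  · intro β
    refine Fin.cons_injective_iff.2 ⟨?_, ?_⟩
    · rintro ⟨i, hi⟩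
      have h2 : ((e i).1 : ZMod (2 * k)) = 0 := by
        have h3 := congrArg Prod.fst hi
        change β.1 + ((e i).1 : ZMod (2 * k)) = β.1 at h3
        simpa using h3
      exact h0 (h2 ▸ (e i).1.2)
    · intro i j hij
      apply e.injective
      have h3 := congrArg Prod.fst hij
      have h4 := congrArg Prod.snd hij
      change β.1 + ((e i).1 : ZMod (2 * k)) = β.1 + ((e j).1 : ZMod (2 * k)) at h3
      change (e i).2 = (e j).2 at h4
      exact Prod.ext (Subtype.ext (add_left_cancel h3)) h4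
  · intro x
    have h2 : ∀ β : ZMod (2 * k) × Bool, ∑ i, (if B β i = x then 1 else 0) =
        (if β = x then 1 else 0) + ∑ i, (if w β.1 i = x then 1 else 0) := by
      intro β
      rw [Fin.sum_univ_succ]
      rfl
    simp only [h2]
    rw [Finset.sum_add_distrib, Finset.sum_ite_eq' univ x, if_pos (mem_univ x),
      Fintype.sum_prod_type]
    have h3 : ∀ u : ZMod (2 * k), ∑ _s : Bool, ∑ i, (if w u i = x then 1 else 0) =
        2 * ∑ i, (if w u i = x then 1 else 0) := by
      intro u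
      rw [Finset.sum_const, card_univ, Fintype.card_bool, smul_eq_mul]
    have h4 : ∑ u : ZMod (2 * k), ∑ i, (if w u i = x then 1 else 0) = h := by
      rw [Finset.sum_comm]
      have h5 : ∀ i, ∑ u : ZMod (2 * k), (if w u i = x then 1 else 0) =
          (fun y : H × Bool => if y.2 = x.2 then 1 else 0) (e i) := by
        intro i
        have h6 : ∀ u : ZMod (2 * k), (if w u i = x then 1 else 0) =
            (if u = x.1 - (e i).1 then (if (e i).2 = x.2 then 1 else 0) else 0) := by
          intro u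
          rw [← ite_and]
          refine if_congr ?_ rfl rfl
          rw [Prod.ext_iff, eq_sub_iff_add_eq]
        simp only [h6]
        rw [Finset.sum_ite_eq' univ, if_pos (mem_univ _)]
      simp only [h5]
      rw [e.sum_comp (fun y : H × Bool => if y.2 = x.2 then 1 else 0), Fintype.sum_prod_type]
      simp [hH]
    calc 1 + ∑ u : ZMod (2 * k), ∑ _s : Bool, ∑ i, (if w u i = x then 1 else 0)
        = 1 + ∑ u : ZMod (2 * k), 2 * ∑ i, (if w u i = x then 1 else 0) := by
          simp only [h3]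
      _ = 2 * h + 1 := by rw [← Finset.mul_sum, h4, add_comm]
  · intro t ht
    let V : ZMod (2 * k) → ℝ := fun u => ∏ i, ∏ j ∈ Finset.Ioi i, (t (w u j) - t (w u i))
    let D : ZMod (2 * k) → ZMod (2 * k) → ℝ := fun u v => ∏ b : Bool, ∏ s : Bool,
      (t (v, b) - t (u, s))
    have h2 : ∀ β : ZMod (2 * k) × Bool, ∏ i, ∏ j ∈ Finset.Ioi i, (t (B β j) - t (B β i)) =
        (∏ i, (t (w β.1 i) - t β)) * V β.1 := by
      intro β
      rw [Fin.prod_univ_succ, Fin.prod_Ioi_zero]
      simp only [Fin.prod_Ioi_succ]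
      rfl
    have h3 : ∀ u : ZMod (2 * k), ∏ s : Bool, ∏ i, (t (w u i) - t (u, s)) =
        ∏ v ∈ H, D u (u + v) := by
      intro u
      rw [Finset.prod_comm]
      have h4 : ∀ i, ∏ s : Bool, (t (w u i) - t (u, s)) =
        (fun y : H × Bool => ∏ s : Bool, (t (u + y.1, y.2) - t (u, s))) (e i) := fun i => rfl
      simp only [h4]
      rw [e.prod_comp (fun y : H × Bool => ∏ s : Bool, (t (u + y.1, y.2) - t (u, s))),
        Fintype.prod_prod_type, ← Finset.prod_coe_sort H]
    have h5 : ∏ β : ZMod (2 * k) × Bool, ∏ i, ∏ j ∈ Finset.Ioi i, (t (B β j) - t (B β i)) =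
        (∏ u, ∏ v ∈ H, D u (u + v)) * ∏ u, V u ^ 2 := by
      simp only [h2]
      rw [Fintype.prod_prod_type, ← Finset.prod_mul_distrib]
      refine Finset.prod_congr rfl fun u _ => ?_
      rw [← h3 u, Finset.prod_mul_distrib]
      have h6 : ∏ _s : Bool, V u = V u ^ 2 := by
        rw [Finset.prod_const, card_univ, Fintype.card_bool]
      exact congrArg _ h6
    rw [h5]
    refine mul_nonneg (prod_pos_sym H h0 hs D ?_ ?_).le
      (Finset.prod_nonneg fun u _ => sq_nonneg _)
    · intro u v huv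
      refine Finset.prod_ne_zero_iff.2 fun b _ => Finset.prod_ne_zero_iff.2 fun s _ => ?_
      refine sub_ne_zero.2 fun h => huv ?_
      exact (congrArg Prod.fst (ht h)).symm
    · intro u v
      simp only [D, Fintype.prod_bool]
      ring

end Vale.Agent.P181.H662
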