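import Vale.Agent.P181.H662.TallAll
import Vale.Agent.P181.H73.TallQ

set_option autoImplicit false

/-!
# P181: tall shapes for even `a`
-/

namespace Vale.Agent.P181.H662

open Vale.Agent.P181 Vale.Agent.P181.H280

/-- The translation principle, subtractive form. -/
theorem col_sub {a c b n : ℕ} (ha : 2 ≤ a) (han : a ≤ n)
    (hc : (Even a ∧ Even c ∧ a ≤ c) ∨ (Odd a ∧ 4 ∣ c ∧ a < c)) (lam : Fin n → ℕ)
    (hlam : ∀ i : Fin n, (i : ℕ) < a → c ≤ lam i)
    (h : plethMult a b n (fun i => lam i - if (i : ℕ) < a then c else 0) ≤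
      plethMult b a n (fun i => lam i - if (i : ℕ) < a then c else 0)) :
    plethMult a (b + c) n lam ≤ plethMult (b + c) a n lam := by
  have h1 := col_add a c b n _ ha han hc h
  have h2 : (fun i : Fin n => (lam i - if (i : ℕ) < a then c else 0) +
      if (i : ℕ) < a then c else 0) = lam := by
    funext i
    by_cases hi : (i : ℕ) < a
    · rw [if_pos hi]
      exact Nat.sub_add_cancel (hlam i hi)
    · rw [if_neg hi]
      rfl
  rwa [h2] at h1

/-- `a` even, `b` even. -/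
theorem tall_even (a b n : ℕ) (ha : 2 ≤ a) (han : a ≤ n) (hae : Even a) (hb : Even b)
    (hab : 2 * a ≤ b) (lam : Fin n → ℕ)
    (hlam : ∀ i : Fin n, (i : ℕ) < a → a + b % a ≤ lam i ∧ a + b % a + 2 * (b / a) ≤ lam i + 5) :
    plethMult a b n lam ≤ plethMult b a n lam := by
  obtain ⟨K, q, h1, h2, h3, h4⟩ := resE a b ha hae hb hab
  have hq : b / a = q + 1 ∧ b % a = 2 * K - a := by
    rw [Nat.div_mod_unique (by omega)]
    refine ⟨?_, by omega⟩
    rw [h4, Nat.mul_add, mul_one, mul_comm a q]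
    omega
  obtain ⟨hq1, hq2⟩ := hq
  rw [hq1, hq2] at hlam
  rw [h4]
  refine col_sub ha han (Or.inl ⟨hae, even_two_mul K, h1⟩) lam
    (fun i hi => by have := hlam i hi; omega) ?_
  rcases Nat.lt_or_ge 1 q with h | h
  · refine plethMult_le ha h han _ (fun i hi => ?_)
    have h5 := hlam i hi
    rw [if_pos hi]
    omega
  · obtain rfl : q = 1 := by omega
    rw [one_mul]

/-- `a` even, `b` odd. -/
theorem tall_odd (a b n : ℕ) (ha : 4 ≤ a) (han : a ≤ n) (hae : Even a) (hb : Odd b)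
    (hab : 3 * a ≤ b) (lam : Fin n → ℕ)
    (hlam : ∀ i : Fin n, (i : ℕ) < a → a + b % a + 3 ≤ lam i ∧
      a + b % a + 2 * (b / a) ≤ lam i + 4)
    (hhi : ∃ i : Fin n, (i : ℕ) < a ∧ lam i + a < b) :
    plethMult a b n lam ≤ plethMult b a n lam := by
  obtain ⟨r, rfl⟩ := hb
  obtain ⟨K, q, h1, h2, h3, h4⟩ := resE a (2 * r) (by omega) hae (even_two_mul r) (by omega)
  obtain ⟨h, hh⟩ := hae
  have hq : (2 * r + 1) / a = q + 1 ∧ (2 * r + 1) % a = 2 * K - a + 1 := by
    rw [Nat.div_mod_unique (by omega)]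
    refine ⟨?_, by omega⟩
    rw [h4, Nat.mul_add, mul_one, mul_comm a q]
    omega
  obtain ⟨hq1, hq2⟩ := hq
  rw [hq1, hq2] at hlam
  have hq3 : 2 ≤ q := by
    by_contra hc
    obtain rfl : q = 1 := by omega
    omega
  have h5 : 2 * r + 1 = q * a + 1 + 2 * K := by omega
  rw [h5]
  refine col_sub (by omega) han (Or.inl ⟨⟨h, hh⟩, even_two_mul K, h1⟩) lam
    (fun i hi => by have := hlam i hi; omega) ?_
  refine H73.tallQ a q n ha hq3 _ han (fun i hi => ?_) (fun i hi => ?_) ?_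
  · have := hlam i hi
    rw [if_pos hi]
    omega
  · have := hlam i hi
    rw [if_pos hi]
    omega
  · obtain ⟨i, hi, hi2⟩ := hhi
    refine ⟨i, hi, ?_⟩
    rw [if_pos hi, Nat.sub_mul, one_mul]
    omega

end Vale.Agent.P181.H662
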