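import Vale.Agent.P181.H662.Core
import Vale.Agent.P181.H385.Lhs3
import Vale.Agent.P181.H248.RhsMul
import Vale.Agent.P181.H23.InvE
import Vale.Agent.P181.H662.InvOF

set_option autoImplicit false

namespace Vale.Agent.P181.H662

/-- Tall shapes, all `b ≥ 6a`, `a` odd or `b` even. -/
theorem tall_all : H385.TallAll := tallAll H385.lhsStep H248.rhsMul H23.invE invO

/-- Full columns may be added. -/
theorem col_add : ColAdd := colAdd H385.lhsStep H248.rhsMul H23.invE invO

end Vale.Agent.P181.H662
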